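import Mathlib

/-! P022-CFT, block [DIS]: cyclotomic polynomials over a number field of discriminant prime to `m`,
linear disjointness of `L` and `K(ζ_m)`, the Galois group of a compositum. -/

namespace Vale.Agent.P022.H368.Dis

open NumberField IntermediateField Polynomial Module

theorem cop_discr {m : ℕ} [NeZero m] (C : Type*) [Field C] [NumberField C]
    [IsCyclotomicExtension {m} ℚ C] {d : ℤ} (h : IsCoprime (m : ℤ) d) : IsCoprime (discr C) d := by
  rw [Int.isCoprime_iff_nat_coprime, IsCyclotomicExtension.Rat.natAbs_discr m C]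
  refine Nat.Coprime.coprime_div_left ?_
    (Nat.prod_primeFactors_pow_totient_ediv_dvd (NeZero.pos _))
  refine Nat.Coprime.pow_left _ ?_
  have := Int.isCoprime_iff_nat_coprime.1 h
  simpa using this

/-- `[F(ζ_m) : F] = φ(m)` for a number field `F` of discriminant prime to `m`. -/
theorem finrank_adj (F : Type*) [Field F] [NumberField F] {Ω : Type*} [Field Ω] [NumberField Ω]
    [Algebra F Ω] {m : ℕ} [NeZero m] {ζ : Ω} (hζ : IsPrimitiveRoot ζ m)
    (h : IsCoprime (m : ℤ) (discr F)) : finrank F F⟮ζ⟯ = m.totient := by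
  have hcy : IsCyclotomicExtension {m} ℚ ℚ⟮ζ⟯ := hζ.intermediateField_adjoin_isCyclotomicExtension ℚ
  have hgal : IsGalois ℚ ℚ⟮ζ⟯ := IsCyclotomicExtension.isGalois {m} ℚ ℚ⟮ζ⟯
  let B : IntermediateField ℚ Ω := (IsScalarTower.toAlgHom ℚ F Ω).fieldRange
  let e : F ≃ₐ[ℚ] B := AlgEquiv.ofInjectiveField (IsScalarTower.toAlgHom ℚ F Ω)
  have hd : discr B = discr F := (discr_eq_discr_of_algEquiv F e).symm
  have hA : (ℚ⟮ζ⟯ : IntermediateField ℚ Ω).LinearDisjoint B := by
    apply linearDisjoint_of_isGalois_isCoprime_discr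
    rw [hd]
    exact cop_discr _ h
  have hAF : (ℚ⟮ζ⟯ : IntermediateField ℚ Ω).LinearDisjoint F := by
    have := linearDisjoint_iff'.1 hA
    exact this
  have hr := hAF.adjoin_rank_eq_rank_left_of_isAlgebraic_left
  have hadj : adjoin F ((ℚ⟮ζ⟯ : IntermediateField ℚ Ω) : Set Ω) = F⟮ζ⟯ := by
    apply le_antisymm
    · rw [adjoin_le_iff]
      intro x hx
      have : (ℚ⟮ζ⟯ : IntermediateField ℚ Ω) ≤ (F⟮ζ⟯).restrictScalars ℚ := by
        rw [adjoin_simple_le_iff]
        exact mem_adjoin_simple_self F ζ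
      exact this hx
    · rw [adjoin_simple_le_iff]
      exact subset_adjoin _ _ (mem_adjoin_simple_self ℚ ζ)
  rw [hadj] at hr
  have : finrank F F⟮ζ⟯ = finrank ℚ ℚ⟮ζ⟯ := by
    unfold Module.finrank
    rw [hr]
  rw [this]
  exact IsCyclotomicExtension.Rat.finrank m ℚ⟮ζ⟯

/-- `cyclotomic m F` is irreducible for a number field `F` of discriminant prime to `m`. -/
theorem irr (F : Type*) [Field F] [NumberField F] {m : ℕ} [NeZero m]
    (h : IsCoprime (m : ℤ) (discr F)) : Irreducible (cyclotomic m F) := by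
  have : NumberField (CyclotomicField m F) := IsCyclotomicExtension.numberField {m} F _
  have hζ := IsCyclotomicExtension.zeta_spec m F (CyclotomicField m F)
  set ζ := IsCyclotomicExtension.zeta m F (CyclotomicField m F)
  have h1 := finrank_adj F hζ h
  have hint : IsIntegral F ζ := Algebra.IsIntegral.isIntegral ζ
  rw [adjoin.finrank hint] at h1
  have hdvd : minpoly F ζ ∣ cyclotomic m F := by
    apply minpoly.dvd
    rw [aeval_def, eval₂_eq_eval_map, map_cyclotomic, ← IsRoot.def,
      isRoot_cyclotomic_iff]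
    exact hζ
  have heq : minpoly F ζ = cyclotomic m F := by
    refine (eq_of_monic_of_dvd_of_natDegree_le (minpoly.monic hint) (cyclotomic.monic m F) hdvd
      ?_).symm
    rw [natDegree_cyclotomic, h1]
  rw [← heq]
  exact minpoly.irreducible hint


section compositum

variable {K : Type*} [Field K] [NumberField K] {Ω : Type*} [Field Ω] [NumberField Ω] [Algebra K Ω]

/-- `L` and `K(ζ_m)` are linearly disjoint over `K` if `m` is prime to the discriminant of `L`. -/
theorem disj (L : IntermediateField K Ω) {m : ℕ} [NeZero m] {ζ : Ω} (hζ : IsPrimitiveRoot ζ m)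
    (h : IsCoprime (m : ℤ) (discr L)) : L.LinearDisjoint K⟮ζ⟯ := by
  apply LinearDisjoint.of_finrank_sup
  have h1 : finrank L L⟮ζ⟯ = m.totient := finrank_adj L hζ h
  have h2 : finrank K K⟮ζ⟯ = m.totient :=
    finrank_adj K hζ (h.of_isCoprime_of_dvd_right (discr_dvd_discr K L))
  have h3 : (L⟮ζ⟯).restrictScalars K = L ⊔ K⟮ζ⟯ := restrictScalars_adjoin_eq_sup K L {ζ}
  rw [← h3, h2, ← h1]
  exact (Module.finrank_mul_finrank K L L⟮ζ⟯).symm

theorem disj_inf (L : IntermediateField K Ω) {m : ℕ} [NeZero m] {ζ : Ω} (hζ : IsPrimitiveRoot ζ m)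
    (h : IsCoprime (m : ℤ) (discr L)) : L ⊓ K⟮ζ⟯ = ⊥ := (disj L hζ h).inf_eq_bot

theorem disj_le (L Z : IntermediateField K Ω) {m : ℕ} [NeZero m] {ζ : Ω}
    (hζ : IsPrimitiveRoot ζ m) (h : IsCoprime (m : ℤ) (discr L)) (hZ : Z ≤ K⟮ζ⟯) :
    L.LinearDisjoint Z := (disj L hζ h).of_le_right hZ

end compositum

section gal

variable {K M : Type*} [Field K] [Field M] [Algebra K M] [FiniteDimensional K M]

omit [FiniteDimensional K M] in
theorem zpow_fix (g : Gal(M/K)) {x : M} (h : g x = x) (n : ℤ) : (g ^ n) x = x := by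
  have : g ∈ MulAction.stabilizer Gal(M/K) x := h
  exact (MulAction.stabilizer Gal(M/K) x).zpow_mem this n

/-- restriction to the two factors -/
noncomputable def resP (L Z : IntermediateField K M) [IsGalois K L] [IsGalois K Z] :
    Gal(M/K) →* Gal(L/K) × Gal(Z/K) :=
  MonoidHom.prod (AlgEquiv.restrictNormalHom L) (AlgEquiv.restrictNormalHom Z)

theorem resP_inj (L Z : IntermediateField K M) [IsGalois K L] [IsGalois K Z] (hs : L ⊔ Z = ⊤) :
    Function.Injective (resP L Z) := by
  rw [injective_iff_map_eq_one]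
  intro g hg
  have hL : ∀ x : L, g x = x := fun x => by
    have := congrArg Prod.fst hg
    have h2 := AlgEquiv.restrictNormal_commutes g L x
    have h3 : AlgEquiv.restrictNormal g L = 1 := this
    rw [h3] at h2
    exact h2.symm
  have hZ : ∀ x : Z, g x = x := fun x => by
    have := congrArg Prod.snd hg
    have h2 := AlgEquiv.restrictNormal_commutes g Z x
    have h3 : AlgEquiv.restrictNormal g Z = 1 := this
    rw [h3] at h2
    exact h2.symm
  have hle : L ⊔ Z ≤ fixedField (Subgroup.zpowers g) := by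
    refine sup_le ?_ ?_
    · intro x hx
      rw [mem_fixedField_iff]
      intro f hf
      obtain ⟨n, rfl⟩ := Subgroup.mem_zpowers_iff.1 hf
      exact zpow_fix g (hL ⟨x, hx⟩) n
    · intro x hx
      rw [mem_fixedField_iff]
      intro f hf
      obtain ⟨n, rfl⟩ := Subgroup.mem_zpowers_iff.1 hf
      exact zpow_fix g (hZ ⟨x, hx⟩) n
  rw [hs] at hle
  ext x
  exact (mem_fixedField_iff _ _).1 (hle (mem_top (x := x))) g (Subgroup.mem_zpowers g)

end gal

end Vale.Agent.P022.H368.Dis
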