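import Vale.Agent.P022.H567.Cft
import Vale.Agent.P022.H368.Dis

/-! P022-CFT, block [CYF], field half: the subfield of `K(ζ_M)` attached to a character of
`(ℤ/M)ˣ`. -/

open NumberField IntermediateField Polynomial Module TensorProduct

noncomputable section

namespace Vale.Agent.P022.H368.CYF

open Vale.Agent.P022.C Vale.Agent.P022.H368.Dis

/-- `L ⊗ L'` is a field for every subfield `L'` of `K(ζ_M)`, `M` prime to the discriminant of
`L`. -/
theorem isField_tensor (K L : Type) [Field K] [NumberField K] [Field L] [NumberField L]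
    [Algebra K L] (M : ℕ) [NeZero M] (h : IsCoprime (M : ℤ) (discr L))
    (L' : IntermediateField K (CyclotomicField M K)) : IsField (L ⊗[K] L') := by
  have hirr : Irreducible (cyclotomic M K) :=
    irr K (h.of_isCoprime_of_dvd_right (discr_dvd_discr K L))
  have hC : IsPrimitiveRoot (IsCyclotomicExtension.zeta M K (CyclotomicField M K)) M :=
    IsCyclotomicExtension.zeta_spec M K _
  have hΩ : IsPrimitiveRoot (IsCyclotomicExtension.zeta M L (CyclotomicField M L)) M :=
    IsCyclotomicExtension.zeta_spec M L _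
  set ζ := IsCyclotomicExtension.zeta M K (CyclotomicField M K)
  set ξ := IsCyclotomicExtension.zeta M L (CyclotomicField M L)
  let fa : L →ₐ[K] CyclotomicField M L := IsScalarTower.toAlgHom K L _
  have hmin : aeval ξ (minpoly K (hC.powerBasis K).gen) = 0 := by
    rw [IsPrimitiveRoot.powerBasis_gen, ← hC.minpoly_eq_cyclotomic_of_irreducible hirr,
      aeval_def, eval₂_eq_eval_map, map_cyclotomic, ← IsRoot.def, isRoot_cyclotomic_iff]
    exact hΩ
  let fb : CyclotomicField M K →ₐ[K] CyclotomicField M L := (hC.powerBasis K).lift ξ hmin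
  have hfb : fb ζ = ξ := by
    have := (hC.powerBasis K).lift_gen ξ hmin
    rwa [IsPrimitiveRoot.powerBasis_gen] at this
  have htop : Algebra.adjoin K {ζ} = ⊤ := by
    have := (hC.powerBasis K).adjoin_gen_eq_top
    rwa [IsPrimitiveRoot.powerBasis_gen] at this
  have hle : (fb.comp L'.val).fieldRange ≤ K⟮ξ⟯ := by
    rintro _ ⟨x, rfl⟩
    change fb (x : CyclotomicField M K) ∈ K⟮ξ⟯
    have hx : (x : CyclotomicField M K) ∈ Algebra.adjoin K {ζ} := by rw [htop]; trivial
    have h2 : fb x ∈ (Algebra.adjoin K {ζ}).map fb := ⟨_, hx, rfl⟩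
    rw [AlgHom.map_adjoin, Set.image_singleton, hfb] at h2
    exact algebra_adjoin_le_adjoin K {ξ} h2
  have hd : discr fa.fieldRange = discr L :=
    (discr_eq_discr_of_algEquiv L
      ((AlgEquiv.ofInjectiveField fa).restrictScalars ℚ)).symm
  have H : fa.fieldRange.LinearDisjoint (fb.comp L'.val).fieldRange :=
    disj_le fa.fieldRange (fb.comp L'.val).fieldRange hΩ (by rw [hd]; exact h) hle
  exact H.isField_of_isAlgebraic' (Or.inl inferInstance)

section

variable (K : Type) [Field K] [NumberField K] (M : ℕ) [NeZero M]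
  (hirr : Irreducible (cyclotomic M K)) {n : ℕ} (χ : (ZMod M)ˣ →* Multiplicative (ZMod n))

/-- the character of the Galois group of `K(ζ_M)` attached to `χ` -/
def gch : Gal(CyclotomicField M K/K) →* Multiplicative (ZMod n) :=
  χ.comp (IsCyclotomicExtension.autEquivPow (CyclotomicField M K) hirr).toMonoidHom

theorem gch_apply (g : Gal(CyclotomicField M K/K)) :
    gch K M hirr χ g = χ (IsCyclotomicExtension.autEquivPow (CyclotomicField M K) hirr g) := rfl

/-- the field attached to `χ` -/
def cf : IntermediateField K (CyclotomicField M K) := fixedField (gch K M hirr χ).ker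

instance : IsGalois K (CyclotomicField M K) := IsCyclotomicExtension.isGalois {M} K _

instance : IsGalois K (cf K M hirr χ) :=
  inferInstanceAs (IsGalois K (fixedField (gch K M hirr χ).ker))

theorem gch_surj (hχ : Function.Surjective χ) : Function.Surjective (gch K M hirr χ) :=
  hχ.comp (IsCyclotomicExtension.autEquivPow (CyclotomicField M K) hirr).surjective

/-- the Galois group of the field attached to `χ` -/
def ce (hχ : Function.Surjective χ) : Gal(cf K M hirr χ/K) ≃* Multiplicative (ZMod n) :=
  (IsGalois.normalAutEquivQuotient (gch K M hirr χ).ker).symm.trans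
    (QuotientGroup.quotientKerEquivOfSurjective (gch K M hirr χ) (gch_surj K M hirr χ hχ))

theorem ce_restrict (hχ : Function.Surjective χ) (g : Gal(CyclotomicField M K/K)) :
    ce K M hirr χ hχ (AlgEquiv.restrictNormalHom (cf K M hirr χ) g) = gch K M hirr χ g := by
  have h : AlgEquiv.restrictNormalHom (cf K M hirr χ) g =
    IsGalois.normalAutEquivQuotient (gch K M hirr χ).ker (g : _ ⧸ (gch K M hirr χ).ker) := rfl
  rw [h]
  change (QuotientGroup.quotientKerEquivOfSurjective (gch K M hirr χ) (gch_surj K M hirr χ hχ))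
    ((IsGalois.normalAutEquivQuotient (gch K M hirr χ).ker).symm
      (IsGalois.normalAutEquivQuotient (gch K M hirr χ).ker
        (g : _ ⧸ (gch K M hirr χ).ker))) = _
  rw [MulEquiv.symm_apply_apply]
  rfl

/-- the generator of the Galois group -/
def cs (hχ : Function.Surjective χ) : Gal(cf K M hirr χ/K) :=
  (ce K M hirr χ hχ).symm (Multiplicative.ofAdd 1)

theorem cyc_cs (hn : 0 < n) (hχ : Function.Surjective χ) :
    Cyc K n (cs K M hirr χ hχ) := by
  refine ⟨hn, ?_, ?_⟩
  · rw [cs, MulEquiv.orderOf_eq, orderOf_ofAdd_eq_addOrderOf, ZMod.addOrderOf_one]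
  · rw [← IsGalois.card_aut_eq_finrank, Nat.card_congr (ce K M hirr χ hχ).toEquiv]
    exact Nat.card_zmod n

theorem restrict_eq (hχ : Function.Surjective χ) (g : Gal(CyclotomicField M K/K)) (b : ℕ)
    (hb : (b : ZMod n) = Multiplicative.toAdd (gch K M hirr χ g)) :
    AlgEquiv.restrictNormalHom (cf K M hirr χ) g = cs K M hirr χ hχ ^ b := by
  apply (ce K M hirr χ hχ).injective
  rw [ce_restrict, map_pow, cs, MulEquiv.apply_symm_apply, ← ofAdd_nsmul, nsmul_one, hb,
    ofAdd_toAdd]

theorem apply_eq (hχ : Function.Surjective χ) (g : Gal(CyclotomicField M K/K)) (b : ℕ)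
    (hb : (b : ZMod n) = Multiplicative.toAdd (gch K M hirr χ g)) (x : cf K M hirr χ) :
    g (x : CyclotomicField M K) = ((cs K M hirr χ hχ ^ b) x : cf K M hirr χ) := by
  rw [← restrict_eq K M hirr χ hχ g b hb]
  exact (AlgEquiv.restrictNormal_commutes g (cf K M hirr χ) x).symm

end

/-- the field half of [CYF] -/
theorem cyf_field (K L : Type) [Field K] [NumberField K] [Field L] [NumberField L] [Algebra K L]
    (M : ℕ) [NeZero M] (h : IsCoprime (M : ℤ) (discr L)) (n : ℕ) (hn : 0 < n)
    (χ : (ZMod M)ˣ →* Multiplicative (ZMod n)) (hχ : Function.Surjective χ) :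
    ∃ (hirr : Irreducible (cyclotomic M K)) (L' : IntermediateField K (CyclotomicField M K))
      (σ : L' ≃ₐ[K] L'), IsGalois K L' ∧ Cyc K n σ ∧ IsField (L ⊗[K] L') ∧
      ∀ (g : CyclotomicField M K ≃ₐ[K] CyclotomicField M K) (b : ℕ),
        (b : ZMod n) = Multiplicative.toAdd
          (χ (IsCyclotomicExtension.autEquivPow (CyclotomicField M K) hirr g)) →
        ∀ x : L', g (x : CyclotomicField M K) = ((σ ^ b) x : L') := by
  have hirr : Irreducible (cyclotomic M K) :=
    irr K (h.of_isCoprime_of_dvd_right (discr_dvd_discr K L))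
  refine ⟨hirr, cf K M hirr χ, cs K M hirr χ hχ, inferInstance, cyc_cs K M hirr χ hn hχ,
    isField_tensor K L M h _, fun g b hb x => apply_eq K M hirr χ hχ g b hb x⟩

end Vale.Agent.P022.H368.CYF
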