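import Vale.Agent.P022.H368.CyfField

/-! P022-CFT, block [CYF], conjugation clause. -/

open NumberField IntermediateField Polynomial Module TensorProduct

noncomputable section

namespace Vale.Agent.P022.H368.CYF

open Vale.Agent.P022.C

theorem ex_unit {M n : ℕ} (χ : (ZMod M)ˣ →* Multiplicative (ZMod n)) (u : (ZMod M)ˣ) :
    ex χ (u : ZMod M) = Multiplicative.toAdd (χ u) := by
  unfold ex
  rw [dif_pos u.isUnit]
  exact congrArg (fun w => Multiplicative.toAdd (χ w)) (Units.ext rfl)

/-- the action on the `M`-th roots of unity -/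
theorem aut_pow (K : Type) [Field K] [NumberField K] (M : ℕ) [NeZero M]
    (hirr : Irreducible (cyclotomic M K)) (g : Gal(CyclotomicField M K/K))
    {x : CyclotomicField M K} (hx : x ^ M = 1) :
    g x = x ^ ((IsCyclotomicExtension.autEquivPow (CyclotomicField M K) hirr g : (ZMod M)ˣ) :
      ZMod M).val := by
  obtain ⟨a, -, rfl⟩ :=
    (IsCyclotomicExtension.zeta_spec M K (CyclotomicField M K)).eq_pow_of_pow_eq_one hx
  rw [map_pow, pow_right_comm, IsCyclotomicExtension.autEquivPow_apply, OneHom.toFun_eq_coe,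
    MonoidHom.toOneHom_coe, IsPrimitiveRoot.autToPow_spec]

/-- complex conjugation acts as `χ(-1)` -/
theorem cyf_conj (K : Type) [Field K] [NumberField K] (M : ℕ) [NeZero M]
    (hirr : Irreducible (cyclotomic M K)) {n : ℕ} (χ : (ZMod M)ˣ →* Multiplicative (ZMod n))
    (L' : IntermediateField K (CyclotomicField M K)) (σ : L' ≃ₐ[K] L')
    (hσ : ∀ (g : CyclotomicField M K ≃ₐ[K] CyclotomicField M K) (b : ℕ),
        (b : ZMod n) = Multiplicative.toAdd
          (χ (IsCyclotomicExtension.autEquivPow (CyclotomicField M K) hirr g)) →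
        ∀ x : L', g (x : CyclotomicField M K) = ((σ ^ b) x : L'))
    (ρ : L' →+* ℂ) (φ : K →+* ℝ) (hρ : ∀ x : K, ρ (algebraMap K L' x) = (φ x : ℂ)) (b : ℕ)
    (hb : (b : ZMod n) = ex χ (-1)) (x : L') : starRingEnd ℂ (ρ x) = ρ ((σ ^ b) x) := by
  letI : Algebra L' ℂ := ρ.toAlgebra
  let f : CyclotomicField M K →ₐ[L'] ℂ := IsAlgClosed.lift
  have hf : ∀ y : L', f (y : CyclotomicField M K) = ρ y := fun y => f.commutes y
  letI : Algebra K ℂ := (Complex.ofRealHom.comp φ).toAlgebra
  have hK : ∀ y : K, f (algebraMap K (CyclotomicField M K) y) = (φ y : ℂ) := fun y => by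
    rw [← hρ y, ← hf]
    rfl
  let g := (IsCyclotomicExtension.autEquivPow (CyclotomicField M K) hirr).symm (-1)
  have hg : IsCyclotomicExtension.autEquivPow (CyclotomicField M K) hirr g = -1 :=
    MulEquiv.apply_symm_apply _ _
  let f₁ : CyclotomicField M K →ₐ[K] ℂ :=
    { (f : CyclotomicField M K →+* ℂ) with commutes' := hK }
  let f₂ : CyclotomicField M K →ₐ[K] ℂ :=
    { (starRingEnd ℂ).comp (f : CyclotomicField M K →+* ℂ) with
      commutes' := fun y => by
        change starRingEnd ℂ (f (algebraMap K (CyclotomicField M K) y)) = (φ y : ℂ)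
        rw [hK, Complex.conj_ofReal] }
  have hζ := IsCyclotomicExtension.zeta_spec M K (CyclotomicField M K)
  have key : f₂ = f₁.comp g.toAlgHom := by
    apply (hζ.powerBasis K).algHom_ext
    rw [IsPrimitiveRoot.powerBasis_gen]
    change starRingEnd ℂ (f (IsCyclotomicExtension.zeta M K (CyclotomicField M K))) =
      f (g (IsCyclotomicExtension.zeta M K (CyclotomicField M K)))
    rw [aut_pow K M hirr g hζ.pow_eq_one, hg, map_pow]
    set z := f (IsCyclotomicExtension.zeta M K (CyclotomicField M K)) with hz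
    have hz1 : z ^ M = 1 := by rw [hz, ← map_pow, hζ.pow_eq_one, map_one]
    have hnorm : ‖z‖ = 1 := Complex.norm_eq_one_of_pow_eq_one hz1 (NeZero.ne M)
    have hz0 : z ≠ 0 := by
      rintro h0
      rw [h0, norm_zero] at hnorm
      exact zero_ne_one hnorm
    have hconj : starRingEnd ℂ z = z⁻¹ := by
      rw [Complex.inv_def, Complex.normSq_eq_norm_sq, hnorm]
      simp
    rw [hconj]
    apply mul_left_cancel₀ hz0
    rw [mul_inv_cancel₀ hz0, ← pow_succ']
    have hdvd : M ∣ ((-1 : (ZMod M)ˣ) : ZMod M).val + 1 := by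
      rw [← ZMod.natCast_eq_zero_iff]
      push_cast
      rw [ZMod.natCast_val, ZMod.cast_id', id]
      ring
    obtain ⟨c, hc⟩ := hdvd
    rw [hc, pow_mul, hz1, one_pow]
  have hb' : (b : ZMod n) = Multiplicative.toAdd
      (χ (IsCyclotomicExtension.autEquivPow (CyclotomicField M K) hirr g)) := by
    rw [hb, hg, ← ex_unit]
    congr 1
  rw [← hf, ← hf, ← hσ g b hb' x]
  exact DFunLike.congr_fun key (x : CyclotomicField M K)

end Vale.Agent.P022.H368.CYF
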